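import Mathlib

/-!
# A cell of `ℝ^d` that tiles by translations only along one coset of `ℤ^d`

The cell is the unit cube with a small hole for each coordinate direction; the hole of direction
`i`, moved by the unit vector `i`, is added as a bump. The holes sit so that a hole of a translate
can only be filled by the bump of the translate one step back in the same direction.
-/

namespace Vale.Agent.P043.Cell

open MeasureTheory Metric Set
open scoped ENNReal

variable {d : ℕ}

/-- Centre of the unit cube. -/
noncomputable def half (d : ℕ) : Fin d → ℝ := fun _ => 1 / 2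

/-- Centre of the hole of direction `i`. -/
noncomputable def ctr (i : Fin d) : Fin d → ℝ := fun k => if k = i then 1 / 4 else 3 / 4

/-- The unit vector of direction `i`. -/
noncomputable def ev (i : Fin d) : Fin d → ℝ := Pi.single i 1

/-- Radius of the holes. -/
noncomputable def rad : ℝ := 1 / 50

/-- The open cube translated by `a`. -/
noncomputable def cube (a : Fin d → ℝ) : Set (Fin d → ℝ) := ball (a + half d) (1 / 2)

/-- The hole of direction `i` of the translate by `a`. -/
noncomputable def hole (a : Fin d → ℝ) (i : Fin d) : Set (Fin d → ℝ) := ball (a + ctr i) rad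

/-- The cell translated by `a`. -/
noncomputable def cell (a : Fin d → ℝ) : Set (Fin d → ℝ) :=
  (cube a \ ⋃ i, hole a i) ∪ ⋃ i, hole (a + ev i) i

theorem mem_cube {a x : Fin d → ℝ} : x ∈ cube a ↔ ∀ k, |x k - (a k + 1 / 2)| < 1 / 2 := by
  rw [cube, mem_ball, dist_pi_lt_iff (by norm_num)]
  simp [Real.dist_eq, half]

theorem mem_hole {a x : Fin d → ℝ} {i : Fin d} :
    x ∈ hole a i ↔ ∀ k, |x k - (a k + ctr i k)| < rad := by
  rw [hole, mem_ball, dist_pi_lt_iff (by norm_num [rad])]
  simp [Real.dist_eq]

theorem hole_sub_cube (a : Fin d → ℝ) (i : Fin d) : hole a i ⊆ cube a := by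
  intro x hx
  rw [mem_cube]
  intro k
  have h := mem_hole.1 hx k
  simp only [ctr, rad] at h
  split_ifs at h <;> rw [abs_lt] at h ⊢ <;> constructor <;> linarith

theorem hole_disjoint (a : Fin d → ℝ) {i j : Fin d} (hij : i ≠ j) {x : Fin d → ℝ}
    (hi : x ∈ hole a i) (hj : x ∈ hole a j) : False := by
  have h1 := mem_hole.1 hi i
  have h2 := mem_hole.1 hj i
  simp only [ctr, rad, if_pos, if_neg hij] at h1 h2
  rw [abs_lt] at h1 h2
  linarith

theorem cell_vadd (a b : Fin d → ℝ) : (fun x => b + x) '' cell a = cell (b + a) := by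
  have hb : ∀ (c : Fin d → ℝ) (r : ℝ), (fun x => b + x) '' ball c r = ball (b + c) r := by
    intro c r
    rw [image_add_left]
    ext x
    simp only [mem_preimage, mem_ball, dist_eq_norm]
    rw [show -b + x - c = x - (b + c) by abel]
  simp only [cell, cube, hole, image_union, image_iUnion, image_sdiff (add_right_injective b), hb,
    add_assoc]

theorem measurableSet_cell (a : Fin d → ℝ) : MeasurableSet (cell a) :=
  (measurableSet_ball.diff (MeasurableSet.iUnion fun _ => measurableSet_ball)).union
    (MeasurableSet.iUnion fun _ => measurableSet_ball)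

theorem isBounded_cell (a : Fin d → ℝ) : Bornology.IsBounded (cell a) :=
  (isBounded_ball.subset sdiff_subset).union
    (Bornology.isBounded_iUnion.2 fun _ => isBounded_ball)

theorem volume_holes (a : Fin d → ℝ) :
    volume (⋃ i, hole a i) ≤ ENNReal.ofReal ((d : ℝ) * (1 / 25) ^ d) := by
  refine (measure_iUnion_fintype_le _ _).trans ?_
  simp only [hole, Real.volume_pi_ball _ (show (0 : ℝ) < rad by norm_num [rad]), Fintype.card_fin,
    Finset.sum_const, Finset.card_univ, nsmul_eq_mul]
  rw [ENNReal.ofReal_mul (by positivity), ENNReal.ofReal_natCast]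
  norm_num [rad]

theorem two_mul_lt_five_pow (d : ℕ) : 2 * d < 5 ^ d := by
  induction d with
  | zero => norm_num
  | succ d ih =>
    have : 1 ≤ 5 ^ d := Nat.one_le_pow _ _ (by norm_num)
    rw [pow_succ]
    omega

/-- A box with all sides at least `1 / 5` outweighs the holes of two translates. -/
theorem no_big_overlap {a b : Fin d → ℝ} (hab : volume (cell a ∩ cell b) = 0) {l u : Fin d → ℝ}
    (hs : ∀ k, 1 / 5 ≤ u k - l k) (ha : Set.pi univ (fun k => Ioo (l k) (u k)) ⊆ cube a)
    (hb : Set.pi univ (fun k => Ioo (l k) (u k)) ⊆ cube b) : False := by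
  have hsub : Set.pi univ (fun k => Ioo (l k) (u k))
      ⊆ (cell a ∩ cell b) ∪ ((⋃ i, hole a i) ∪ ⋃ i, hole b i) := by
    intro x hx
    by_cases h1 : x ∈ ⋃ i, hole a i
    · exact Or.inr (Or.inl h1)
    by_cases h2 : x ∈ ⋃ i, hole b i
    · exact Or.inr (Or.inr h2)
    exact Or.inl ⟨Or.inl ⟨ha hx, h1⟩, Or.inl ⟨hb hx, h2⟩⟩
  have h1 : ENNReal.ofReal ((1 / 5 : ℝ) ^ d) ≤ volume (Set.pi univ fun k => Ioo (l k) (u k)) := by
    rw [Real.volume_pi_Ioo, ← ENNReal.ofReal_prod_of_nonneg fun k _ =>
      le_trans (by norm_num) (hs k)]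
    refine ENNReal.ofReal_le_ofReal ?_
    calc (1 / 5 : ℝ) ^ d = ∏ _k : Fin d, (1 / 5 : ℝ) := by simp
      _ ≤ ∏ k, (u k - l k) := Finset.prod_le_prod (fun _ _ => by norm_num) fun k _ => hs k
  have h2 : volume (Set.pi univ fun k => Ioo (l k) (u k))
      ≤ ENNReal.ofReal ((d : ℝ) * (1 / 25) ^ d + (d : ℝ) * (1 / 25) ^ d) := by
    refine (measure_mono hsub).trans ((measure_union_le _ _).trans ?_)
    rw [hab, zero_add, ENNReal.ofReal_add (by positivity) (by positivity)]
    exact (measure_union_le _ _).trans (add_le_add (volume_holes a) (volume_holes b))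
  have h3 := h1.trans h2
  rw [ENNReal.ofReal_le_ofReal_iff (by positivity)] at h3
  have h4 : ((2 * d : ℕ) : ℝ) < ((5 ^ d : ℕ) : ℝ) := by exact_mod_cast two_mul_lt_five_pow d
  have h5 : (1 / 5 : ℝ) ^ d = (5 : ℝ) ^ d * (1 / 25) ^ d := by rw [← mul_pow]; norm_num
  push_cast at h4
  nlinarith [pow_pos (show (0 : ℝ) < 1 / 25 by norm_num) d]

/-- Cubes of two translates that are close in every coordinate cannot both be used. -/
theorem eq_of_close {a b : Fin d → ℝ} (hab : a ≠ b → volume (cell a ∩ cell b) = 0)
    (h : ∀ k, |a k - b k| ≤ 4 / 5) : a = b := by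
  by_contra hne
  refine no_big_overlap (hab hne) (l := fun k => max (a k) (b k))
    (u := fun k => min (a k) (b k) + 1) (fun k => ?_) (fun x hx => ?_) fun x hx => ?_
  · have := max_sub_min_eq_abs (a k) (b k)
    rw [abs_sub_comm] at this
    linarith [h k]
  all_goals
    rw [mem_cube]
    intro k
    have := hx k (mem_univ k)
    simp only [mem_Ioo, max_lt_iff, lt_min_iff, ← sub_lt_iff_lt_add] at this
    rw [abs_lt]
    constructor <;> linarith [this.1.1, this.1.2, this.2.1, this.2.2]

/-- The translation set of a tiling by the cell. -/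
structure IsTiling (A : Set (Fin d → ℝ)) : Prop where
  cover : volume (⋃ a ∈ A, cell a)ᶜ = 0
  disj : ∀ a ∈ A, ∀ b ∈ A, a ≠ b → volume (cell a ∩ cell b) = 0

/-- A point of a hole covered by another translate is in the bump of the neighbour behind. -/
theorem hole_filler {A : Set (Fin d → ℝ)} (hA : IsTiling A) {a b x : Fin d → ℝ} {i : Fin d}
    (ha : a ∈ A) (hb : b ∈ A) (hx : x ∈ hole a i) (hxb : x ∈ cell b) (hne : b ≠ a) :
    x ∈ hole (b + ev i) i := by
  have hh := mem_hole.1 hx
  rcases hxb with ⟨hc, -⟩ | hbump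
  · exfalso
    refine hne (eq_of_close (hA.disj b hb a ha) fun k => ?_)
    have h1 := hh k
    have h2 := mem_cube.1 hc k
    simp only [ctr, rad] at h1
    rw [abs_lt] at h1 h2
    rw [abs_le]
    split_ifs at h1 <;> constructor <;> linarith
  · obtain ⟨j, hj⟩ := mem_iUnion.1 hbump
    by_cases hji : j = i
    · exact hji ▸ hj
    exfalso
    refine hne (eq_of_close (hA.disj b hb a ha) fun k => ?_)
    have h1 := hh k
    have h2 := mem_hole.1 hj k
    simp only [ctr, rad, ev, Pi.add_apply, Pi.single_apply] at h1 h2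
    rw [abs_lt] at h1 h2
    rw [abs_le]
    by_cases hki : k = i
    · subst hki
      simp only [if_pos, if_neg (Ne.symm hji)] at h1 h2
      constructor <;> linarith
    · simp only [if_neg hki] at h1
      split_ifs at h2 <;> constructor <;> linarith

/-- The translate one step back in every direction is present. -/
theorem sub_ev_mem {A : Set (Fin d → ℝ)} (hA : IsTiling A) {a : Fin d → ℝ} (ha : a ∈ A)
    (i : Fin d) : a - ev i ∈ A := by
  have hpos : ∀ (U : Set (Fin d → ℝ)), IsOpen U → U.Nonempty → U ⊆ hole a i →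
      ∃ b ∈ A, ∃ x ∈ U, x ∈ hole (b + ev i) i := by
    intro U hU hne hUs
    obtain ⟨x, hxU, hxc⟩ : ∃ x ∈ U, x ∈ ⋃ b ∈ A, cell b := by
      by_contra hc
      push Not at hc
      exact (hU.measure_pos volume hne).ne' (measure_mono_null (fun _ hx => hc _ hx) hA.cover)
    obtain ⟨b, hb, hxb⟩ := mem_iUnion₂.1 hxc
    have hba : b ≠ a := by
      rintro rfl
      rcases hxb with ⟨-, hn⟩ | hbump
      · exact hn (mem_iUnion.2 ⟨i, hUs hxU⟩)
      · obtain ⟨j, hj⟩ := mem_iUnion.1 hbump
        have h1 := mem_hole.1 (hUs hxU) j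
        have h2 := mem_hole.1 hj j
        simp only [ctr, rad, ev, Pi.add_apply, Pi.single_eq_same, if_pos] at h1 h2
        rw [abs_lt] at h1 h2
        split_ifs at h1 <;> linarith
    exact ⟨b, hb, x, hxU, hole_filler hA ha hb (hUs hxU) hxb hba⟩
  obtain ⟨b, hb, y, hy, hyb⟩ := hpos (hole a i) isOpen_ball
    (nonempty_ball.2 (by norm_num [rad])) subset_rfl
  by_cases hd : b + ev i = a
  · rwa [← hd, add_sub_cancel_right]
  exfalso
  obtain ⟨k, hk⟩ := Function.ne_iff.1 hd
  set δ := a k - (b + ev i) k with hδ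
  have hδ0 : δ ≠ 0 := sub_ne_zero.2 (Ne.symm hk)
  have hyk : |δ| < 2 * rad := by
    have h1 := mem_hole.1 hy k
    have h2 := mem_hole.1 hyb k
    rw [abs_lt] at h1 h2 ⊢
    constructor <;> linarith
  obtain ⟨b', hb', z, hz, hzb⟩ := hpos
    (hole a i ∩ {x | rad < |x k - ((b + ev i) k + ctr i k)|})
    (isOpen_ball.inter (isOpen_lt continuous_const (by fun_prop))) (by
      rcases lt_or_gt_of_ne hδ0 with hneg | hpo
      · refine ⟨Function.update (a + ctr i) k ((a + ctr i) k - (rad + δ / 2)),
          mem_hole.2 fun l => ?_, ?_⟩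
        · by_cases hl : l = k
          · subst hl
            rw [Function.update_self]
            rw [abs_lt] at hyk ⊢
            simp only [Pi.add_apply, rad] at hyk ⊢
            constructor <;> linarith
          · simp [Function.update_of_ne hl, rad]
        · simp only [mem_ofPred_eq, Function.update_self, lt_abs, Pi.add_apply]
          right
          rw [abs_lt] at hyk
          simp only [hδ, Pi.add_apply] at hneg ⊢
          linarith
      · refine ⟨Function.update (a + ctr i) k ((a + ctr i) k + (rad - δ / 2)),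
          mem_hole.2 fun l => ?_, ?_⟩
        · by_cases hl : l = k
          · subst hl
            rw [Function.update_self]
            rw [abs_lt] at hyk ⊢
            simp only [Pi.add_apply, rad] at hyk ⊢
            constructor <;> linarith
          · simp [Function.update_of_ne hl, rad]
        · simp only [mem_ofPred_eq, Function.update_self, lt_abs, Pi.add_apply]
          left
          rw [abs_lt] at hyk
          simp only [hδ, Pi.add_apply] at hpo ⊢
          linarith)
    inter_subset_left
  have hbb : b' = b := eq_of_close (hA.disj b' hb' b hb) fun l => by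
    have h1 := mem_hole.1 hy l
    have h2 := mem_hole.1 hyb l
    have h3 := mem_hole.1 hz.1 l
    have h4 := mem_hole.1 hzb l
    simp only [Pi.add_apply, rad] at h1 h2 h3 h4
    rw [abs_lt] at h1 h2 h3 h4
    rw [abs_le]
    constructor <;> linarith
  subst hbb
  exact absurd (mem_hole.1 hzb k) (not_lt.2 hz.2.le)

theorem sub_nat_mem {A : Set (Fin d → ℝ)} (hA : IsTiling A) {a : Fin d → ℝ} (ha : a ∈ A)
    (n : Fin d → ℕ) : a - (fun k => (n k : ℝ)) ∈ A := by
  have h1 : ∀ (i : Fin d) (m : ℕ) (c : Fin d → ℝ), c ∈ A → c - (m : ℝ) • ev i ∈ A := by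
    intro i m
    induction m with
    | zero => intro c hc; simpa using hc
    | succ m ih =>
      intro c hc
      have := sub_ev_mem hA (ih c hc) i
      rwa [Nat.cast_succ, add_smul, one_smul, ← sub_sub]
  have h2 : ∀ s : Finset (Fin d), a - ∑ i ∈ s, (n i : ℝ) • ev i ∈ A := by
    intro s
    induction s using Finset.induction_on with
    | empty => simpa using ha
    | insert i t hi ih =>
      rw [Finset.sum_insert hi, add_comm, ← sub_sub]
      exact h1 i (n i) _ ih
  convert h2 Finset.univ using 2
  funext k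
  simp [ev, Finset.sum_apply, Pi.single_apply]

/-- Two translates of a tiling by the cell differ by an integer vector. -/
theorem int_diff {A : Set (Fin d → ℝ)} (hA : IsTiling A) {a b : Fin d → ℝ} (ha : a ∈ A)
    (hb : b ∈ A) : ∃ m : Fin d → ℤ, a - b = fun k => (m k : ℝ) := by
  let m : Fin d → ℤ := fun k => round (a k - b k)
  have key : a - (fun k => ((m k).toNat : ℝ)) = b - (fun k => ((-m k).toNat : ℝ)) := by
    refine eq_of_close (hA.disj _ (sub_nat_mem hA ha _) _ (sub_nat_mem hA hb _)) fun k => ?_
    have h := abs_sub_round (a k - b k)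
    have hz : ((((m k).toNat : ℕ) : ℤ) : ℝ) - ((((-m k).toNat : ℕ) : ℤ) : ℝ) = (m k : ℝ) := by
      rw [← Int.cast_sub, Int.toNat_sub_toNat_neg]
    push_cast at hz
    simp only [Pi.sub_apply]
    rw [abs_le] at h ⊢
    constructor <;> linarith [h.1, h.2, hz]
  refine ⟨m, funext fun k => ?_⟩
  have hz : ((((m k).toNat : ℕ) : ℤ) : ℝ) - ((((-m k).toNat : ℕ) : ℤ) : ℝ) = (m k : ℝ) := by
    rw [← Int.cast_sub, Int.toNat_sub_toNat_neg]
  push_cast at hz
  have := congrFun key k
  simp only [Pi.sub_apply] at this ⊢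
  linarith

/-- The integer vectors as real vectors. -/
def castR (n : Fin d → ℤ) : Fin d → ℝ := fun k => (n k : ℝ)

/-- The points with a coordinate on the grid shifted by `t`. -/
def grid (t : Fin d → ℝ) : Set (Fin d → ℝ) := {x | ∃ k : Fin d, ∃ m : ℤ, x k = t k + m}

theorem volume_grid (t : Fin d → ℝ) : volume (grid t) = 0 := by
  have : grid t ⊆ ⋃ k : Fin d, ⋃ m : ℤ, Set.pi univ (fun l => if l = k then {t k + m} else univ) := by
    rintro x ⟨k, m, h⟩
    refine mem_iUnion.2 ⟨k, mem_iUnion.2 ⟨m, fun l _ => ?_⟩⟩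
    by_cases hl : l = k
    · subst hl; simp [h]
    · simp [hl]
  refine measure_mono_null this (measure_iUnion_null fun k => measure_iUnion_null fun m => ?_)
  rw [volume_pi, Measure.pi_pi]
  exact Finset.prod_eq_zero (Finset.mem_univ k) (by simp)

/-- Away from the grid the integer translates of the cell form an exact partition. -/
theorem existsUnique_cell (t : Fin d → ℝ) {x : Fin d → ℝ} (hx : x ∉ grid t) :
    ∃! n : Fin d → ℤ, x ∈ cell (t + castR n) := by
  let fl : Fin d → ℤ := fun k => ⌊x k - t k⌋
  have hlt : ∀ k, (fl k : ℝ) < x k - t k := fun k => lt_of_le_of_ne (Int.floor_le _) fun e =>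
    hx ⟨k, fl k, by linarith [e]⟩
  have hcube : ∀ n : Fin d → ℤ, x ∈ cube (t + castR n) ↔ n = fl := by
    intro n
    rw [mem_cube]
    constructor
    · intro h; funext k
      have := h k
      simp only [Pi.add_apply, castR, abs_lt] at this
      exact (Int.floor_eq_iff.2 ⟨by linarith, by linarith⟩).symm
    · rintro rfl k
      have := Int.lt_floor_add_one (x k - t k)
      simp only [Pi.add_apply, castR, abs_lt, fl]
      constructor <;> linarith [hlt k]
  have hev : ∀ (n : Fin d → ℤ) (i : Fin d),
      t + castR n + ev i = t + castR (n + Pi.single i 1) := by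
    intro n i; funext k
    simp only [Pi.add_apply, castR, ev, Pi.single_apply]
    split_ifs <;> push_cast <;> ring
  by_cases hh : x ∈ ⋃ i, hole (t + castR fl) i
  · obtain ⟨i, hi⟩ := mem_iUnion.1 hh
    refine ⟨fl - Pi.single i 1, Or.inr (mem_iUnion.2 ⟨i, ?_⟩), fun n hn => ?_⟩
    · rw [hev, sub_add_cancel]; exact hi
    · rcases hn with ⟨hc, hnh⟩ | hb
      · exact absurd ((hcube n).1 hc ▸ hh) hnh
      · obtain ⟨j, hj⟩ := mem_iUnion.1 hb
        rw [hev] at hj
        have e := (hcube _).1 (hole_sub_cube _ _ hj)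
        rw [e] at hj
        have : j = i := by_contra fun hne => hole_disjoint _ hne hj hi
        rw [← this, ← e, add_sub_cancel_right]
  · refine ⟨fl, Or.inl ⟨(hcube fl).2 rfl, hh⟩, fun n hn => ?_⟩
    rcases hn with ⟨hc, -⟩ | hb
    · exact (hcube n).1 hc
    · obtain ⟨j, hj⟩ := mem_iUnion.1 hb
      rw [hev] at hj
      rw [(hcube _).1 (hole_sub_cube _ _ hj)] at hj
      exact absurd (mem_iUnion.2 ⟨j, hj⟩) hh

/-- Two distinct integer translates overlap in a null set. -/
theorem volume_inter_int (t : Fin d → ℝ) {m n : Fin d → ℤ} (h : m ≠ n) :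
    volume (cell (t + castR m) ∩ cell (t + castR n)) = 0 :=
  measure_mono_null (fun x hx => by_contra fun hg =>
    h ((existsUnique_cell t hg).unique hx.1 hx.2)) (volume_grid t)

theorem volume_cell_pos [NeZero d] (a : Fin d → ℝ) : 0 < volume (cell a) :=
  lt_of_lt_of_le (measure_ball_pos volume (a + ev 0 + ctr 0) (show (0 : ℝ) < rad by norm_num [rad]))
    (measure_mono fun _ hx => Or.inr (mem_iUnion.2 ⟨0, hx⟩))

end Vale.Agent.P043.Cell
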