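import Vale.Agent.P043.Cell
import Vale.Agent.P043.D4.Padded

/-!
# The periodic tiling conjecture fails in `ℝ^d` for every `d ≥ 4`

The aperiodic tile of `ℤ^d` is thickened by the rigid cell.
-/

namespace Vale.Agent.P043.EuclidFour

open MeasureTheory Vale.Agent.P043.Cell Set

/-- For every `d ≥ 4` some bounded measurable set of positive measure tiles `ℝ^d` by translations
although none of its tilings is invariant under a lattice of rank `d`. -/
theorem euclidFour : ∀ d : ℕ, 4 ≤ d → ∃ Ω : Set (Fin d → ℝ), Bornology.IsBounded Ω ∧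
    MeasurableSet Ω ∧ 0 < volume Ω ∧
    (∃ A : Set (Fin d → ℝ), volume (⋃ a ∈ A, (fun x => a + x) '' Ω)ᶜ = 0 ∧
      ∀ a ∈ A, ∀ b ∈ A, a ≠ b → volume ((fun x => a + x) '' Ω ∩ (fun x => b + x) '' Ω) = 0) ∧
    ∀ A : Set (Fin d → ℝ), volume (⋃ a ∈ A, (fun x => a + x) '' Ω)ᶜ = 0 →
      (∀ a ∈ A, ∀ b ∈ A, a ≠ b →
        volume ((fun x => a + x) '' Ω ∩ (fun x => b + x) '' Ω) = 0) →
      ¬ ∃ v : Module.Basis (Fin d) ℝ (Fin d → ℝ), ∀ i a, a + v i ∈ A ↔ a ∈ A := by
  classical
  intro d hd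
  have : NeZero d := ⟨by omega⟩
  obtain ⟨F, hne, ⟨A₀, hA₀⟩, hno⟩ := Vale.Agent.P043.D4.ptc_fails_four d hd
  have cast_add : ∀ m n : Fin d → ℤ, castR m + castR n = castR (m + n) := fun m n =>
    funext fun k => by simp [castR]
  have cast_inj : ∀ {m n : Fin d → ℤ}, castR m = castR n → m = n := fun {m n} h =>
    funext fun k => by simpa [castR] using congrFun h k
  have himg : ∀ a : Fin d → ℝ,
      (fun x => a + x) '' (⋃ f ∈ F, cell (castR f)) = ⋃ f ∈ F, cell (a + castR f) := fun a => by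
    simp only [image_iUnion, cell_vadd]
  refine ⟨⋃ f ∈ F, cell (castR f), (Bornology.isBounded_biUnion_finset F).2 fun f _ => isBounded_cell _,
    F.measurableSet_biUnion fun f _ => measurableSet_cell _, ?_, ?_, ?_⟩
  · obtain ⟨f, hf⟩ := hne
    exact lt_of_lt_of_le (volume_cell_pos (castR f)) (measure_mono (subset_biUnion_of_mem
      (u := fun f => cell (castR f)) hf))
  · refine ⟨castR '' A₀, measure_mono_null (fun x hx => by_contra fun hg => hx ?_) (volume_grid 0),
      ?_⟩
    · obtain ⟨n, hn, -⟩ := existsUnique_cell 0 hg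
      obtain ⟨a, ⟨ha, haf⟩, -⟩ := hA₀ n
      refine mem_iUnion₂.2 ⟨castR a, ⟨a, ha, rfl⟩, ?_⟩
      rw [himg]
      refine mem_iUnion₂.2 ⟨n - a, haf, ?_⟩
      rwa [cast_add, add_sub_cancel, ← zero_add (castR n)]
    · rintro _ ⟨a, ha, rfl⟩ _ ⟨b, hb, rfl⟩ hab
      rw [himg, himg]
      refine measure_mono_null (fun x hx => by_contra fun hg => hab ?_) (volume_grid 0)
      obtain ⟨n, -, hu⟩ := existsUnique_cell 0 hg
      obtain ⟨⟨f, hf, h1⟩, g, hgF, h2⟩ :=
        (⟨by simpa using hx.1, by simpa using hx.2⟩ :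
          (∃ f ∈ F, x ∈ cell (castR a + castR f)) ∧ ∃ g ∈ F, x ∈ cell (castR b + castR g))
      have e1 : a + f = n := hu _ (by simpa [cast_add] using h1)
      have e2 : b + g = n := hu _ (by simpa [cast_add] using h2)
      obtain ⟨c, -, hc⟩ := hA₀ n
      rw [hc a ⟨ha, by rw [← e1, add_sub_cancel_left]; exact hf⟩,
        hc b ⟨hb, by rw [← e2, add_sub_cancel_left]; exact hgF⟩]
  rintro A hcov hdisj ⟨v, hv⟩
  simp only [himg] at hcov hdisj
  set B : Set (Fin d → ℝ) := {b | ∃ a ∈ A, ∃ f ∈ F, b = a + castR f}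
  have hsub : ∀ a, ∀ f ∈ F, cell (a + castR f) ⊆ ⋃ g ∈ F, cell (a + castR g) := fun a f hf =>
    subset_biUnion_of_mem (u := fun g => cell (a + castR g)) hf
  have hB : IsTiling B := by
    refine ⟨measure_mono_null ?_ hcov, ?_⟩
    · intro x hx hx'
      obtain ⟨a, ha, hxa⟩ := mem_iUnion₂.1 hx'
      obtain ⟨f, hf, hxf⟩ := mem_iUnion₂.1 hxa
      exact hx (mem_iUnion₂.2 ⟨_, ⟨a, ha, f, hf, rfl⟩, hxf⟩)
    · rintro _ ⟨a, ha, f, hf, rfl⟩ _ ⟨b, hb, g, hg, rfl⟩ hne'
      by_cases hab : a = b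
      · subst hab
        exact volume_inter_int a fun e => hne' (by rw [e])
      · exact measure_mono_null (inter_subset_inter (hsub a f hf) (hsub b g hg))
          (hdisj a ha b hb hab)
  obtain ⟨f₀, hf₀⟩ := hne
  have hint : ∀ a ∈ A, ∀ b ∈ A, ∃ m : Fin d → ℤ, a = b + castR m := by
    intro a ha b hb
    obtain ⟨m, hm⟩ := int_diff hB (a := a + castR f₀) (b := b + castR f₀) ⟨a, ha, f₀, hf₀, rfl⟩
      ⟨b, hb, f₀, hf₀, rfl⟩
    refine ⟨m, ?_⟩
    rw [add_sub_add_right_eq_sub, sub_eq_iff_eq_add] at hm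
    rw [hm, add_comm]; rfl
  obtain ⟨t, ht⟩ : A.Nonempty := by
    by_contra h
    rw [Set.not_nonempty_iff_eq_empty] at h
    simp [h] at hcov
  have huniq : ∀ (a b : Fin d → ℤ) (f g : Fin d → ℤ), t + castR a ∈ A → t + castR b ∈ A → f ∈ F →
      g ∈ F → a + f = b + g → a = b := by
    intro a b f g ha hb hf hg e
    by_contra hab
    have hsub2 : cell (t + castR (a + f))
        ⊆ (⋃ g ∈ F, cell (t + castR a + castR g)) ∩ ⋃ g ∈ F, cell (t + castR b + castR g) :=
      fun x hx => ⟨hsub _ f hf (by rwa [add_assoc, cast_add]),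
        hsub _ g hg (by rwa [add_assoc, cast_add, ← e])⟩
    exact (volume_cell_pos (t + castR (a + f))).ne' (measure_mono_null hsub2
      (hdisj _ ha _ hb fun e' => hab (cast_inj (add_left_cancel e'))))
  have htile : ∀ x, ∃! a, a ∈ {n : Fin d → ℤ | t + castR n ∈ A} ∧ x - a ∈ F := by
    intro x
    obtain ⟨a, ha, f, hf, e⟩ : ∃ a : Fin d → ℤ, t + castR a ∈ A ∧ ∃ f ∈ F, a + f = x := by
      by_contra hc
      push Not at hc
      refine (volume_cell_pos (t + castR x)).ne' (measure_mono_null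
        (fun y hy => ?_) (measure_union_null hcov (volume_grid t)))
      by_contra hn
      rw [mem_union, not_or] at hn
      obtain ⟨hcv, hg⟩ := hn
      rw [mem_compl_iff, not_not] at hcv
      obtain ⟨a', ha', hya⟩ := mem_iUnion₂.1 hcv
      obtain ⟨f, hf, hyf⟩ := mem_iUnion₂.1 hya
      obtain ⟨m, rfl⟩ := hint a' ha' t ht
      refine hc m ha' f hf ((existsUnique_cell t hg).unique ?_ hy)
      rwa [add_assoc, cast_add] at hyf
    refine ⟨a, ⟨ha, by rw [← e, add_sub_cancel_left]; exact hf⟩, fun b ⟨hb, hbF⟩ => ?_⟩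
    exact huniq b a _ f hb ha hbF hf (by rw [e, add_sub_cancel])
  let H : AddSubgroup (Fin d → ℤ) :=
    { carrier := {m | ∀ a, a + castR m ∈ A ↔ a ∈ A}
      zero_mem' := fun a => by rw [show castR (0 : Fin d → ℤ) = 0 from funext fun k => by simp [castR], add_zero]
      add_mem' := fun {m n} hm hn a => by rw [← cast_add, ← add_assoc, hn, hm]
      neg_mem' := fun {m} hm a => by
        have h0 : castR (-m) + castR m = 0 := by
          rw [cast_add, neg_add_cancel]; exact funext fun k => by simp [castR]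
        rw [← hm (a + castR (-m)), add_assoc, h0, add_zero] }
  have hV : ∀ i, ∃ w : Fin d → ℤ, v i = castR w := by
    intro i
    obtain ⟨w, hw⟩ := hint (t + v i) ((hv i t).2 ht) t ht
    exact ⟨w, add_left_cancel hw⟩
  choose w hw using hV
  have hwH : ∀ i, w i ∈ H := fun i a => by rw [← hw]; exact hv i a
  set V : Matrix (Fin d) (Fin d) ℤ := Matrix.of w
  have hdet : V.det ≠ 0 := by
    have hli : LinearIndependent ℝ (V.map (Int.castRingHom ℝ)).row := by
      have : (V.map (Int.castRingHom ℝ)).row = fun i => v i := by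
        funext i k; simp [V, hw i, castR]
      rw [this]; exact v.linearIndependent
    have h1 : IsUnit (V.map (Int.castRingHom ℝ)).det :=
      (Matrix.isUnit_iff_isUnit_det _).1 (Matrix.linearIndependent_rows_iff_isUnit.1 hli)
    intro h
    apply h1.ne_zero
    rw [← RingHom.mapMatrix_apply, ← RingHom.map_det, h, map_zero]
  have hmul : ∀ m : Fin d → ℤ, V.det • m ∈ H := by
    intro m
    have e : V.det • m = ∑ i, (Matrix.vecMul m V.adjugate i) • w i := by
      have h2 := Matrix.vecMul_vecMul m V.adjugate V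
      rw [Matrix.adjugate_mul, Matrix.vecMul_smul, Matrix.vecMul_one] at h2
      funext k
      rw [← congrFun h2 k]
      simp [Matrix.vecMul, dotProduct, V, Finset.sum_apply]
    rw [e]
    exact H.sum_mem fun i _ => H.zsmul_mem (hwH i) _
  refine hno {n | t + castR n ∈ A} htile ⟨H, ?_, fun h hh a => ?_⟩
  · haveI : NeZero V.det.natAbs := ⟨Int.natAbs_ne_zero.2 hdet⟩
    let ψ : (Fin d → ℤ) →+ (Fin d → ZMod V.det.natAbs) :=
      AddMonoidHom.compLeft (Int.castAddHom (ZMod V.det.natAbs)) (Fin d)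
    have : ψ.ker.FiniteIndex := ⟨by
      rw [AddSubgroup.index_ker]
      exact Nat.card_pos.ne'⟩
    refine AddSubgroup.finiteIndex_of_le (H := ψ.ker) fun m hm => ?_
    have hdiv : ∀ k, ∃ c : ℤ, m k = V.det * c := fun k => by
      have h3 : ((m k : ℤ) : ZMod V.det.natAbs) = 0 := congrFun hm k
      rw [ZMod.intCast_zmod_eq_zero_iff_dvd, Int.natAbs_dvd] at h3
      exact h3
    choose c hc using hdiv
    have : m = V.det • c := funext fun k => by simp [hc k]
    rw [this]; exact hmul c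
  · show t + castR (a + h) ∈ A ↔ t + castR a ∈ A
    rw [← cast_add, ← add_assoc]
    exact hh _

end Vale.Agent.P043.EuclidFour
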