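import Vale.Agent.P043.EuclidThree
import Vale.Agent.P043.R2.Lift

/-!
# The periodic tiling conjecture fails in `ℝ^d` for every `d ≥ 2`
-/

namespace Vale.Agent.P043.EuclidTwo

open MeasureTheory Vale.Agent.P043.R2

/-- For every `d ≥ 2` some bounded measurable set of positive measure tiles `ℝ^d` by translations
although none of its tilings is invariant under a lattice of rank `d`. -/
theorem euclidTwo : ∀ d : ℕ, 2 ≤ d → ∃ Ω : Set (Fin d → ℝ), Bornology.IsBounded Ω ∧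
    MeasurableSet Ω ∧ 0 < volume Ω ∧
    (∃ A : Set (Fin d → ℝ), volume (⋃ a ∈ A, (fun x => a + x) '' Ω)ᶜ = 0 ∧
      ∀ a ∈ A, ∀ b ∈ A, a ≠ b → volume ((fun x => a + x) '' Ω ∩ (fun x => b + x) '' Ω) = 0) ∧
    ∀ A : Set (Fin d → ℝ), volume (⋃ a ∈ A, (fun x => a + x) '' Ω)ᶜ = 0 →
      (∀ a ∈ A, ∀ b ∈ A, a ≠ b →
        volume ((fun x => a + x) '' Ω ∩ (fun x => b + x) '' Ω) = 0) →
      ¬ ∃ v : Module.Basis (Fin d) ℝ (Fin d → ℝ), ∀ i a, a + v i ∈ A ↔ a ∈ A := by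
  intro d hd
  obtain rfl | hd3 : d = 2 ∨ 3 ≤ d := by omega
  · exact ⟨tile, isBounded_tile, measurableSet_tile, volume_tile_pos, tile_tiles,
      fun A hcov hdisj => tile_no_periodic hcov hdisj⟩
  · exact Vale.Agent.P043.EuclidThree.euclidThree d hd3

end Vale.Agent.P043.EuclidTwo
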